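import Mathlib
import Vale.Agent.Lib.P199.VirtualDimOne

/-!
Kurosh's problem over uncountable fields `k` with a finite extension `k'` all of whose finite
extensions have trivial Brauer group: both forms of the question, and the contrapositive.
-/

namespace Vale.Agent.Results.P199.TrivialBrauer

universe u v w

/-- A finite-dimensional division algebra is commutative if all central division algebras over
finite extensions of the base field are trivial. -/
private theorem comm_of_brauer {k' : Type w} [Field k']
    (hBr : ∀ (L : Type u) [Field L] [Algebra k' L] [FiniteDimensional k' L] (A : Type u)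
      [DivisionRing A] [Algebra L A] [FiniteDimensional L A] [Algebra.IsCentral L A],
      Module.finrank L A = 1)
    (B : Type u) [DivisionRing B] [Algebra k' B] [FiniteDimensional k' B] (x y : B) :
    x * y = y * x := by
  let Z := Subring.center B
  let _ : Algebra k' Z := ((algebraMap k' B).codRestrict Z fun c => by
    rw [Subring.mem_center_iff]
    intro g
    exact (Algebra.commutes c g).symm).toAlgebra
  have _ : IsScalarTower k' Z B := IsScalarTower.of_algebraMap_eq fun c => rfl
  have _ : FiniteDimensional Z B := Module.Finite.of_restrictScalars_finite k' Z B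
  have _ : FiniteDimensional k' Z := by
    let f : Z →ₗ[k'] B :=
      { toFun := fun z => (z : B)
        map_add' := fun _ _ => rfl
        map_smul' := fun c z => by
          rw [Algebra.smul_def, Algebra.smul_def]
          rfl }
    exact FiniteDimensional.of_injective f Subtype.val_injective
  have _ : Algebra.IsCentral Z B := by
    refine ⟨fun b hb => ?_⟩
    rw [Subalgebra.mem_center_iff] at hb
    have hb' : b ∈ Subring.center B := by
      rw [Subring.mem_center_iff]
      exact hb
    exact Algebra.mem_bot.mpr ⟨⟨b, hb'⟩, rfl⟩
  have h1 := hBr Z B
  obtain ⟨c, hc⟩ := (finrank_eq_one_iff_of_nonzero' (1 : B) one_ne_zero).mp h1 x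
  have hx : x = (c : B) := by
    rw [← hc, Algebra.smul_def, mul_one]
    rfl
  rw [hx]
  exact (Subring.mem_center_iff.mp c.2 y).symm

/-- Let `k` be an uncountable field, `k'/k` finite, and suppose that over every finite extension
`L` of `k'` the only finite-dimensional central division algebra is `L` itself.
(1) Kurosh's form: every division ring algebraic over the central subfield `k` is locally finite
over `k`, and if it is finitely generated as a `k`-algebra then it is finite-dimensional.
(2) Centre form: a division ring `D` with centre `k` which is algebraic over `k` is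
finite-dimensional, of dimension at most `[k' : k] ^ 2`. -/
theorem result (k : Type v) [Field k] [Uncountable k] (k' : Type w) [Field k'] [Algebra k k']
    [FiniteDimensional k k']
    (hBr : ∀ (L : Type u) [Field L] [Algebra k' L] [FiniteDimensional k' L] (A : Type u)
      [DivisionRing A] [Algebra L A] [FiniteDimensional L A] [Algebra.IsCentral L A],
      Module.finrank L A = 1) :
    (∀ (D : Type u) [DivisionRing D] [Algebra k D], (∀ a : D, IsAlgebraic k a) →
      (∀ S : Set D, S.Finite → FiniteDimensional k (Algebra.adjoin k S)) ∧
      (Algebra.FiniteType k D → FiniteDimensional k D)) ∧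
    (∀ (D : Type u) [DivisionRing D] [Algebra k D], (∀ a : D, IsAlgebraic k a) →
      (∀ z : D, (∀ a : D, z * a = a * z) → ∃ c : k, algebraMap k D c = z) →
      FiniteDimensional k D ∧ Module.finrank k D ≤ (Module.finrank k k') ^ 2) := by
  have hc := comm_of_brauer hBr
  refine ⟨fun D _ _ halg => ?_, fun D _ _ halg hcen => ?_⟩
  · have _ : Algebra.IsAlgebraic k D := ⟨halg⟩
    obtain ⟨-, -, h3⟩ := Vale.Agent.P199.main (k := k) (k' := k') (D := D) hc
    have h4 : ∀ S : Set D, S.Finite → FiniteDimensional k (Algebra.adjoin k S) := by
      intro S hS
      have := h3 hS.toFinset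
      rwa [hS.coe_toFinset] at this
    refine ⟨h4, fun hft => ?_⟩
    obtain ⟨S, hS⟩ := hft.out
    have h5 := h3 S
    rw [hS] at h5
    exact Module.Finite.equiv (Subalgebra.topEquiv (R := k) (A := D)).toLinearEquiv
  · have _ : Algebra.IsAlgebraic k D := ⟨halg⟩
    obtain ⟨h1, h2, -⟩ := Vale.Agent.P199.main (k := k) (k' := k') (D := D) hc
    let Z := Subring.center D
    let e₀ : k →+* Z := (algebraMap k D).codRestrict Z fun c => by
      rw [Subring.mem_center_iff]
      intro g
      exact (Algebra.commutes c g).symm
    let _ : Algebra k Z := e₀.toAlgebra
    have _ : IsScalarTower k Z D := IsScalarTower.of_algebraMap_eq fun c => rfl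
    have hsurj : Function.Surjective (algebraMap k Z) := by
      intro z
      obtain ⟨c, hc⟩ := hcen z fun a => (Subring.mem_center_iff.mp z.2 a).symm
      exact ⟨c, Subtype.ext hc⟩
    have hbij : Function.Bijective (algebraMap k Z) := ⟨(algebraMap k Z).injective, hsurj⟩
    have hfk : FiniteDimensional k Z :=
      Module.Finite.of_surjective (Algebra.linearMap k Z) hsurj
    have h6 : Module.finrank k Z = 1 := by
      have := (LinearEquiv.ofBijective (Algebra.linearMap k Z) hbij).finrank_eq
      rw [← this, Module.finrank_self]
    have h7 : Module.finrank k Z * Module.finrank Z D = Module.finrank k D :=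
      Module.finrank_mul_finrank k Z D
    refine ⟨Module.Finite.trans Z D, ?_⟩
    rw [← h7, h6, one_mul]
    exact h2

end Vale.Agent.Results.P199.TrivialBrauer
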