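import Mathlib
import Vale.Agent.Lib.P199.VirtualDimOne

/-!
Kurosh's problem for division rings algebraic over an uncountable field of virtual dimension
at most one.
-/

namespace Vale.Agent.Results.P199.VirtualDimOne

universe u v w

/-- Let `k` be an uncountable field and `k'/k` a finite field extension such that every
finite-dimensional division algebra over `k'` is commutative.  Then every division ring `D`
which is a `k`-algebra algebraic over `k` is finite-dimensional over its centre, of dimension at
most `[k' : k] ^ 2`, and every finite subset of `D` generates a finite-dimensional
`k`-subalgebra. -/
theorem result :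
    ∀ (k : Type v) (k' : Type w) (D : Type u) [Field k] [Uncountable k] [Field k']
      [Algebra k k'] [FiniteDimensional k k'] [DivisionRing D] [Algebra k D]
      [Algebra.IsAlgebraic k D],
      (∀ (B : Type u) [DivisionRing B] [Algebra k' B] [FiniteDimensional k' B] (x y : B),
        x * y = y * x) →
      Module.Finite (Subring.center D) D ∧
        Module.finrank (Subring.center D) D ≤ (Module.finrank k k') ^ 2 ∧
        ∀ S : Finset D, Module.Finite k (Algebra.adjoin k (S : Set D)) := by
  intro k k' D _ _ _ _ _ _ _ _ h
  exact Vale.Agent.P199.main h

end Vale.Agent.Results.P199.VirtualDimOne
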